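import Vale.Agent.P113.Level1

open MeasureTheory Set

namespace Vale.Agent.Results.P113.Q1Affirmative

open Vale.Agent.P113

theorem result : ∀ ν : ℝ, 0 < ν → ComputableReal ν →
    ∃ (a : T3) (O : Set T3) (T₀ : ℝ) (compiler : Desc × List ℕ → Nat.Partrec.Code)
      (f : (M : Machine) → M.Word → VField),
      IsOpen O ∧ 0 ≤ T₀ ∧ Computable compiler ∧
      (∀ M w, SmoothV (f M w) ∧ Computes (compiler (M.desc, M.wordDesc w)) (f M w)) ∧
      (∀ M, ∃ P, 0 < P ∧ ∀ w w' t, T₀ ≤ t →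
        f M w (t + P) = f M w t ∧ f M w t = f M w' t) ∧
      (∀ M w, ∃ (u : VField) (p : SField),
        SmoothV u ∧ SmoothS p ∧
        (∀ T, 0 < T → IsClassicalSolution ν (f M w) T u p ∧
          ∀ v q, IsClassicalSolution ν (f M w) T v q →
            ∀ t ∈ Icc 0 T, v t = u t ∧ q t = p t) ∧
        (∃ X, IsTrajectory u a X) ∧
        (∀ X, IsTrajectory u a X → ((∃ t, 0 ≤ t ∧ X t ∈ O) ↔ M.HaltsOn w))) :=
  Vale.Agent.P113.main1

end Vale.Agent.Results.P113.Q1Affirmative
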