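import Vale.Agent.P113.L2.Main

open MeasureTheory Set

namespace Vale.Agent.Results.P113.SteadyFlow

open Vale.Agent.P113

theorem result : ∀ ν : ℝ, 0 < ν → ComputableReal ν →
    ∃ (a : T3) (O : Set T3) (y : List ℕ → ℝ)
      (compiler : Desc × List ℕ → Nat.Partrec.Code) (f u : (M : Machine) → M.Word → VField),
      IsOpen O ∧
      Computable compiler ∧
      (∀ M w, SmoothV (f M w) ∧ Computes (compiler (M.desc, M.wordDesc w)) (f M w)) ∧
      (∀ M w M' w', M.wordDesc w = M'.wordDesc w' → ∀ t ∈ Icc 0 1,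
        f M w t = f M' w' t ∧ u M w t = u M' w' t) ∧
      (∀ M w w' t, 1 ≤ t → f M w t = f M w' t ∧ u M w t = u M w' t) ∧
      (∀ M w t, 2 ≤ t → f M w t = f M w 2 ∧ u M w t = u M w 2) ∧
      (∀ M w t k, 0 ≤ t → ∫ x, f M w t x k = 0 ∧ ∫ x, u M w t x k = 0) ∧
      (∀ M w t x, 0 ≤ t → ∑ i, mixed [some i] (fun t x => f M w t x i) t x = 0) ∧
      (∀ M w, SmoothV (u M w) ∧ ∀ T, 0 < T →
        IsClassicalSolution ν (f M w) T (u M w) (fun _ _ => 0) ∧
        ∀ v q, IsClassicalSolution ν (f M w) T v q →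
          ∀ t ∈ Icc 0 T, v t = u M w t ∧ q t = fun _ => 0) ∧
      (∃ s : List ℕ × ℕ → Frac, Computable s ∧
        ∀ l n, |((ratVal (s (l, n)) : ℚ) : ℝ) - y l| ≤ 1 / ((n : ℝ) + 1)) ∧
      (∀ M w, (∃ X, IsTrajectory (u M w) a X) ∧
        ∀ X, IsTrajectory (u M w) a X →
          X 1 = proj ![0, y (M.wordDesc w), 1 / 2] ∧
          ((∃ t, 0 ≤ t ∧ X t ∈ O) ↔ M.HaltsOn w)) :=
  Vale.Agent.P113.L2.main2

end Vale.Agent.Results.P113.SteadyFlow
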